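import Vale.Agent.P092.H179.A.Rect

/-!
P092 (helper179), [CLA] `r ≥ 3`: the insertion lemma.  `ν` commutes with `ζ` and `μ`, is incident
with both, and its value is a rational function of the values of `ζ` and `μ`: then it can be
inserted between `ζ` and `μ` in every relation `X μ(w) Y = 0`, `X` in the commutant of `ζ`.
-/

set_option linter.all false

open Set Topology

namespace Vale.Agent.P092.H179.A

open Vale.Agent.P092.H232 (Nin two_ind split_inc tsupport_mul_l tsupport_mul_r)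
open Vale.Agent.P092.H835 (exists_cut isClosed_meet isClosed_meet')

variable {D A B K : Type*} [TopologicalSpace D] [CompactSpace D] [T2Space D]
  [TopologicalSpace A] [CompactSpace A] [T2Space A]
  [TopologicalSpace B] [CompactSpace B] [T2Space B]
  [NormedAddCommGroup K] [InnerProductSpace ℂ K] [CompleteSpace K]

/-- The common part of `a` and `b` is a rational function of `a` and `b` off the relation `R`. -/
structure Meet (R₁ : D → A → Prop) (R₂ : D → B → Prop) (R : A → B → Prop) : Prop where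
  ex : ∃ (ι : Type) (_ : Fintype ι) (z : ι → C(A, ℂ)) (ψ : ι → C(B, ℂ)) (T : Set C(D, ℂ)),
    (∀ a b, ¬ R a b → ∑ i, z i a * ψ i b ≠ 0) ∧ (∀ d d', d ≠ d' → ∃ τ ∈ T, τ d ≠ τ d') ∧
    (∀ τ ∈ T, star τ ∈ T) ∧
    ∀ τ ∈ T, ∃ (κ : Type) (_ : Fintype κ) (n : κ → C(A, ℂ)) (n' : κ → C(B, ℂ)),
      ∀ d a b, R₁ d a → R₂ d b → τ d * ∑ i, z i a * ψ i b = ∑ j, n j a * n' j b

/-- the contraction -/
theorem contr {ζ : C(A, ℂ) →⋆ₐ[ℂ] (K →L[ℂ] K)} {μ : C(B, ℂ) →⋆ₐ[ℂ] (K →L[ℂ] K)} {P Y : K →L[ℂ] K}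
    {ι : Type} [Fintype ι] (z : ι → C(A, ℂ)) (ψ : ι → C(B, ℂ)) {a₀ : A} {b₀ : B}
    (h0 : ∑ i, z i a₀ * ψ i b₀ ≠ 0) : ∃ (U : Set A) (V : Set B), IsOpen U ∧ a₀ ∈ U ∧ IsOpen V ∧
      b₀ ∈ V ∧ ∀ (P Y : K →L[ℂ] K) (V' : Set B), V' ⊆ V →
        (∀ (v : C(A, ℂ)) (w : C(B, ℂ)), tsupport ⇑v ⊆ U → tsupport ⇑w ⊆ V' →
        ∑ i, P * ζ (v * z i) * μ (w * ψ i) * Y = 0) →
      ∀ (v : C(A, ℂ)) (w : C(B, ℂ)), tsupport ⇑v ⊆ U → tsupport ⇑w ⊆ V' →
        P * ζ v * μ w * Y = 0 := by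
  obtain ⟨δ, hδ⟩ : ∃ δ : ℂ, δ = ∑ i, z i a₀ * ψ i b₀ := ⟨_, rfl⟩
  have hδ0 : 0 < ‖δ‖ := norm_pos_iff.2 (hδ ▸ h0)
  obtain ⟨C, hC⟩ : ∃ C : ℝ, C = ∑ i, (‖ψ i‖ + ‖z i‖) + 1 := ⟨_, rfl⟩
  have hC0 : 0 < C := by
    rw [hC]
    have : 0 ≤ ∑ i, (‖ψ i‖ + ‖z i‖) := Finset.sum_nonneg fun i _ => by positivity
    linarith
  obtain ⟨η, hη⟩ : ∃ η : ℝ, η = ‖δ‖ / 2 / C := ⟨_, rfl⟩
  have hη0 : 0 < η := by rw [hη]; positivity
  have hηC : η * C = ‖δ‖ / 2 := by rw [hη]; field_simp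
  refine ⟨⋂ i, {a | ‖z i a - z i a₀‖ < η}, ⋂ i, {b | ‖ψ i b - ψ i b₀‖ < η},
    isOpen_iInter_of_finite fun i => isOpen_lt (by fun_prop) continuous_const,
    mem_iInter.2 fun i => by
      change ‖z i a₀ - z i a₀‖ < η
      rw [sub_self, norm_zero]
      exact hη0,
    isOpen_iInter_of_finite fun i => isOpen_lt (by fun_prop) continuous_const,
    mem_iInter.2 fun i => by
      change ‖ψ i b₀ - ψ i b₀‖ < η
      rw [sub_self, norm_zero]
      exact hη0, fun P Y V' hV' h => ?_⟩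
  have hz : ∀ (v : C(A, ℂ)), tsupport ⇑v ⊆ ⋂ i, {a | ‖z i a - z i a₀‖ < η} → ∀ i,
      ‖v * (z i - (z i a₀) • (1 : C(A, ℂ)))‖ ≤ ‖v‖ * η := by
    intro v hv i
    rw [ContinuousMap.norm_le _ (by positivity)]
    intro a
    by_cases ha : v a = 0
    · rw [ContinuousMap.mul_apply, ha, zero_mul, norm_zero]
      positivity
    · have h1 : ‖z i a - z i a₀‖ < η := mem_iInter.1 (hv (subset_tsupport _ ha)) i
      rw [ContinuousMap.mul_apply, norm_mul]
      refine mul_le_mul (ContinuousMap.norm_coe_le_norm v a) ?_ (norm_nonneg _) (norm_nonneg _)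
      simpa only [ContinuousMap.sub_apply, ContinuousMap.coe_smul, Pi.smul_apply,
        ContinuousMap.one_apply, smul_eq_mul, mul_one] using h1.le
  have hψ : ∀ (w : C(B, ℂ)), tsupport ⇑w ⊆ V' → ∀ i,
      ‖w * (ψ i - (ψ i b₀) • (1 : C(B, ℂ)))‖ ≤ ‖w‖ * η := by
    intro w hw i
    rw [ContinuousMap.norm_le _ (by positivity)]
    intro b
    by_cases hb : w b = 0
    · rw [ContinuousMap.mul_apply, hb, zero_mul, norm_zero]
      positivity
    · have h1 : ‖ψ i b - ψ i b₀‖ < η := mem_iInter.1 (hV' (hw (subset_tsupport _ hb))) i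
      rw [ContinuousMap.mul_apply, norm_mul]
      refine mul_le_mul (ContinuousMap.norm_coe_le_norm w b) ?_ (norm_nonneg _) (norm_nonneg _)
      simpa only [ContinuousMap.sub_apply, ContinuousMap.coe_smul, Pi.smul_apply,
        ContinuousMap.one_apply, smul_eq_mul, mul_one] using h1.le
  have main : ∀ (m : ℕ) (v : C(A, ℂ)) (w : C(B, ℂ)),
      tsupport ⇑v ⊆ ⋂ i, {a | ‖z i a - z i a₀‖ < η} → tsupport ⇑w ⊆ V' →
      ‖P * ζ v * μ w * Y‖ ≤ ‖P‖ * ‖Y‖ * (1 / 2) ^ m * (‖v‖ * ‖w‖) := by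
    intro m
    induction m with
    | zero =>
      intro v w _ _
      rw [pow_zero, mul_one]
      calc ‖P * ζ v * μ w * Y‖ ≤ ‖P‖ * ‖ζ v‖ * ‖μ w‖ * ‖Y‖ := by
            refine (norm_mul_le _ _).trans (mul_le_mul_of_nonneg_right ?_ (norm_nonneg _))
            refine (norm_mul_le _ _).trans (mul_le_mul_of_nonneg_right ?_ (norm_nonneg _))
            exact norm_mul_le _ _
        _ ≤ ‖P‖ * ‖v‖ * ‖w‖ * ‖Y‖ := by
            gcongr
            · exact norm_cal ζ v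
            · exact norm_cal μ w
        _ = _ := by ring
    | succ m ih =>
      intro v w hv hw
      obtain ⟨β, hβ⟩ : ∃ β : ℝ, β = ‖P‖ * ‖Y‖ * (1 / 2) ^ m := ⟨_, rfl⟩
      have hβ0 : 0 ≤ β := by rw [hβ]; positivity
      rw [← hβ] at ih
      have e1 : δ • (P * ζ v * μ w * Y) = -∑ i,
          (P * ζ (v * (z i - (z i a₀) • (1 : C(A, ℂ)))) * μ (w * ψ i) * Y +
          (z i a₀) • (P * ζ v * μ (w * (ψ i - (ψ i b₀) • (1 : C(B, ℂ)))) * Y)) := by
        have e2 := h v w hv hw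
        rw [eq_neg_iff_add_eq_zero, hδ, Finset.sum_smul, ← Finset.sum_add_distrib]
        refine Eq.trans (Finset.sum_congr rfl fun i _ => ?_) e2
        simp only [mul_sub, mul_smul_comm, mul_one, map_sub, map_smul, sub_mul, smul_mul_assoc,
          smul_sub, smul_smul]
        abel
      have e3 : ‖δ‖ * ‖P * ζ v * μ w * Y‖ ≤ ‖δ‖ / 2 * (β * (‖v‖ * ‖w‖)) := by
        rw [← norm_smul, e1, norm_neg]
        refine (norm_sum_le _ _).trans ?_
        have e4 : ∀ i, ‖P * ζ (v * (z i - (z i a₀) • (1 : C(A, ℂ)))) * μ (w * ψ i) * Y +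
            (z i a₀) • (P * ζ v * μ (w * (ψ i - (ψ i b₀) • (1 : C(B, ℂ)))) * Y)‖ ≤
            (‖ψ i‖ + ‖z i‖) * (η * (β * (‖v‖ * ‖w‖))) := by
          intro i
          have f1 := ih (v * (z i - (z i a₀) • (1 : C(A, ℂ)))) (w * ψ i)
            ((tsupport_mul_l _ _).trans hv) ((tsupport_mul_l _ _).trans hw)
          have f2 := ih v (w * (ψ i - (ψ i b₀) • (1 : C(B, ℂ)))) hv
            ((tsupport_mul_l _ _).trans hw)
          refine (norm_add_le _ _).trans ?_
          rw [norm_smul, add_mul]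
          refine add_le_add ?_ ?_
          · refine f1.trans ?_
            have g1 := hz v hv i
            have g2 : ‖w * ψ i‖ ≤ ‖w‖ * ‖ψ i‖ := norm_mul_le _ _
            calc β * (‖v * (z i - (z i a₀) • (1 : C(A, ℂ)))‖ * ‖w * ψ i‖) ≤
                  β * ((‖v‖ * η) * (‖w‖ * ‖ψ i‖)) := by
                  gcongr
              _ = _ := by ring
          · have g1 := hψ w hw i
            have g2 : ‖z i a₀‖ ≤ ‖z i‖ := ContinuousMap.norm_coe_le_norm _ _
            calc ‖z i a₀‖ * ‖P * ζ v * μ (w * (ψ i - (ψ i b₀) • (1 : C(B, ℂ)))) * Y‖ ≤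
                  ‖z i‖ * (β * (‖v‖ * ‖w * (ψ i - (ψ i b₀) • (1 : C(B, ℂ)))‖)) := by
                  gcongr
              _ ≤ ‖z i‖ * (β * (‖v‖ * (‖w‖ * η))) := by gcongr
              _ = _ := by ring
        refine (Finset.sum_le_sum fun i _ => e4 i).trans ?_
        rw [← Finset.sum_mul]
        have e5 : 0 ≤ β * (‖v‖ * ‖w‖) := by positivity
        calc (∑ i, (‖ψ i‖ + ‖z i‖)) * (η * (β * (‖v‖ * ‖w‖))) ≤
              C * (η * (β * (‖v‖ * ‖w‖))) := by
              refine mul_le_mul_of_nonneg_right ?_ (by positivity)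
              rw [hC]; linarith
          _ = (η * C) * (β * (‖v‖ * ‖w‖)) := by ring
          _ = _ := by rw [hηC]
      have e6 : ‖P * ζ v * μ w * Y‖ ≤ 1 / 2 * (β * (‖v‖ * ‖w‖)) := by
        have : ‖δ‖ * ‖P * ζ v * μ w * Y‖ ≤ ‖δ‖ * (1 / 2 * (β * (‖v‖ * ‖w‖))) := by
          refine e3.trans (le_of_eq ?_)
          ring
        exact le_of_mul_le_mul_left this hδ0
      refine e6.trans (le_of_eq ?_)
      rw [hβ, pow_succ]
      ring
  intro v w hv hw
  rw [← norm_le_zero_iff]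
  have l1 : Filter.Tendsto (fun m : ℕ => ‖P‖ * ‖Y‖ * (1 / 2 : ℝ) ^ m * (‖v‖ * ‖w‖)) Filter.atTop
      (𝓝 (‖P‖ * ‖Y‖ * 0 * (‖v‖ * ‖w‖))) := by
    refine Filter.Tendsto.mul_const _ (Filter.Tendsto.const_mul _ ?_)
    exact tendsto_pow_atTop_nhds_zero_of_lt_one (by norm_num) (by norm_num)
  rw [mul_zero, zero_mul] at l1
  exact ge_of_tendsto' l1 fun m => main m v w hv hw

/-- **The insertion lemma.** -/
theorem ins {R₁ : D → A → Prop} {R₂ : D → B → Prop} {R : A → B → Prop} (hM : Meet R₁ R₂ R)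
    (h₁ : IsClosed {q : D × A | R₁ q.1 q.2}) (h₂ : IsClosed {q : D × B | R₂ q.1 q.2})
    {ν : C(D, ℂ) →⋆ₐ[ℂ] (K →L[ℂ] K)}
    {ζ : C(A, ℂ) →⋆ₐ[ℂ] (K →L[ℂ] K)} {μ : C(B, ℂ) →⋆ₐ[ℂ] (K →L[ℂ] K)}
    (c₁ : ∀ t v, Commute (ν t) (ζ v)) (c₂ : ∀ t w, Commute (ν t) (μ w))
    (i₁ : ∀ t v, Nin R₁ t v → ν t * ζ v = 0) (i₂ : ∀ t w, Nin R₂ t w → ν t * μ w = 0)
    {X Y : K →L[ℂ] K} (hX : ∀ v, Commute X (ζ v)) {S : Set B} (hS : IsOpen S)
    (hXY : ∀ w : C(B, ℂ), tsupport ⇑w ⊆ S → X * μ w * Y = 0)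
    (t : C(D, ℂ)) (v : C(A, ℂ)) (w : C(B, ℂ)) (hvw : Nin R v w) (hw : tsupport ⇑w ⊆ S) :
    X * ν t * ζ v * μ w * Y = 0 := by
  obtain ⟨ι, hι, z, ψ, T, hδ, hsep, hstar, hid⟩ := hM.ex
  refine two_ind (A := K →L[ℂ] K) (S₁ := tsupport ⇑v) (S₂ := tsupport ⇑w)
    (fun v' w' => X * ν t * ζ v' * μ w' * Y)
    (fun u' u'' a' => by simp only [map_add, mul_add, add_mul])
    (fun u' a' a'' => by simp only [map_add, mul_add, add_mul])
    (isClosed_tsupport _).isCompact (isClosed_tsupport _).isCompact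
    (fun a₀ ha₀ b₀ hb₀ => ?_) v w subset_rfl subset_rfl
  obtain ⟨U, V, hU, haU, hV, hbV, hco⟩ := contr (ζ := ζ) (μ := μ) (P := 1) (Y := 1) z ψ
    (hδ a₀ b₀ (hvw a₀ ha₀ b₀ hb₀))
  refine ⟨U, V ∩ S, hU, haU, hV.inter hS, ⟨hbV, hw hb₀⟩, ?_⟩
  -- the set of all good `t`
  obtain ⟨L, hL⟩ : ∃ L : Set C(D, ℂ), L = {t | ∀ (v : C(A, ℂ)) (w : C(B, ℂ)), tsupport ⇑v ⊆ U →
      tsupport ⇑w ⊆ V ∩ S → X * ν t * ζ v * μ w * Y = 0} := ⟨_, rfl⟩
  have hcont : Continuous ν := AddMonoidHomClass.continuous_of_bound ν 1 fun f => by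
    rw [one_mul]; exact norm_cal ν f
  have hLc : IsClosed L := by
    rw [hL]
    simp only [setOf_forall]
    refine isClosed_iInter fun v => isClosed_iInter fun w => isClosed_iInter fun _ =>
      isClosed_iInter fun _ => isClosed_eq ?_ continuous_const
    exact (((continuous_const.mul hcont).mul continuous_const).mul continuous_const).mul
      continuous_const
  have hL1 : (1 : C(D, ℂ)) ∈ L := by
    rw [hL]
    intro v w _ hw
    rw [map_one, mul_one, (hX v).eq, mul_assoc (ζ v), mul_assoc (ζ v),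
      hXY w (hw.trans inter_subset_right), mul_zero]
  have hLT : ∀ t ∈ L, ∀ τ ∈ T, t * τ ∈ L := by
    intro t ht τ hτ
    obtain ⟨κ, hκ, n, n', hn⟩ := hid τ hτ
    rw [hL] at ht ⊢
    have key := fun v w hv hw => hco (X * ν (t * τ)) Y (V ∩ S) inter_subset_left (fun v w hv hw => ?_)
      v w hv hw
    · intro v w hv hw
      exact key v w hv hw
    · -- the identity
      have r1 := rect (ν := ν) (ζ := ζ) (μ := μ) h₁ h₂ c₁ c₂ i₁ i₂ (ι := ι ⊕ κ)
        (fun i => Sum.elim (fun _ => t * τ) (fun _ => -t) i)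
        (fun i => Sum.elim (fun i => v * z i) (fun j => v * n j) i)
        (fun i => Sum.elim (fun i => w * ψ i) (fun j => w * n' j) i) (fun d a b h1 h2 => by
          rw [Fintype.sum_sum_type]
          simp only [Sum.elim_inl, Sum.elim_inr, ContinuousMap.mul_apply, ContinuousMap.neg_apply]
          have e1 := hn d a b h1 h2
          have e2 : ∑ i, t d * τ d * (v a * z i a * (w b * ψ i b)) =
              t d * v a * w b * (τ d * ∑ i, z i a * ψ i b) := by
            rw [Finset.mul_sum, Finset.mul_sum]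
            exact Finset.sum_congr rfl fun i _ => by ring
          have e3 : ∑ j, -t d * (v a * n j a * (w b * n' j b)) =
              -(t d * v a * w b * ∑ j, n j a * n' j b) := by
            rw [Finset.mul_sum, ← Finset.sum_neg_distrib]
            exact Finset.sum_congr rfl fun i _ => by ring
          rw [e2, e3, e1, add_neg_cancel])
      rw [Fintype.sum_sum_type] at r1
      simp only [Sum.elim_inl, Sum.elim_inr] at r1
      have r2 : ∑ i, ν (t * τ) * (ζ (v * z i) * μ (w * ψ i)) =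
          ∑ j, ν t * (ζ (v * n j) * μ (w * n' j)) := by
        rw [eq_comm, ← sub_eq_zero, ← neg_eq_zero, neg_sub]
        rw [← r1, sub_eq_add_neg, ← Finset.sum_neg_distrib]
        congr 1
        refine Finset.sum_congr rfl fun j _ => ?_
        rw [map_neg, neg_mul]
      have r3 : ∑ i, X * ν (t * τ) * ζ (v * z i) * μ (w * ψ i) * Y =
          X * (∑ i, ν (t * τ) * (ζ (v * z i) * μ (w * ψ i))) * Y := by
        rw [Finset.mul_sum, Finset.sum_mul]
        exact Finset.sum_congr rfl fun i _ => by simp only [mul_assoc]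
      rw [r3, r2, Finset.mul_sum, Finset.sum_mul]
      refine Finset.sum_eq_zero fun j _ => ?_
      have r4 := ht (v * n j) (w * n' j) ((tsupport_mul_l _ _).trans hv)
        ((tsupport_mul_l _ _).trans hw)
      simpa only [mul_assoc] using r4
  -- the algebra
  let 𝒮 : StarSubalgebra ℂ C(D, ℂ) :=
    { carrier := {s | (∀ t ∈ L, t * s ∈ L) ∧ ∀ t ∈ L, t * star s ∈ L}
      mul_mem' := fun {s s'} hs hs' => ⟨fun t ht => by
          rw [← mul_assoc]
          exact hs'.1 _ (hs.1 t ht), fun t ht => by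
          rw [star_mul, mul_comm (star s') (star s), ← mul_assoc]
          exact hs'.2 _ (hs.2 t ht)⟩
      add_mem' := fun {s s'} hs hs' => ⟨fun t ht => by
          have q1 := hs.1 t ht
          have q2 := hs'.1 t ht
          rw [hL] at q1 q2 ⊢
          intro v w hv hw
          rw [mul_add, map_add, mul_add, add_mul, add_mul, add_mul, q1 v w hv hw, q2 v w hv hw,
            add_zero], fun t ht => by
          have q1 := hs.2 t ht
          have q2 := hs'.2 t ht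
          rw [hL] at q1 q2 ⊢
          intro v w hv hw
          rw [star_add, mul_add, map_add, mul_add, add_mul, add_mul, add_mul, q1 v w hv hw,
            q2 v w hv hw, add_zero]⟩
      algebraMap_mem' := fun c => by
        have q : ∀ c : ℂ, ∀ t ∈ L, t * algebraMap ℂ C(D, ℂ) c ∈ L := fun c t ht => by
          rw [hL] at ht ⊢
          intro v w hv hw
          rw [Algebra.algebraMap_eq_smul_one, mul_smul_comm, mul_one, map_smul, mul_smul_comm,
            smul_mul_assoc, smul_mul_assoc, smul_mul_assoc, ht v w hv hw, smul_zero]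
        refine ⟨q c, fun t ht => ?_⟩
        rw [← algebraMap_star_comm]
        exact q _ t ht
      star_mem' := fun {s} hs => ⟨hs.2, by rw [star_star]; exact hs.1⟩ }
  have h𝒮 : 𝒮.topologicalClosure = ⊤ := by
    refine ContinuousMap.starSubalgebra_topologicalClosure_eq_top_of_separatesPoints _ ?_
    intro x y hxy
    obtain ⟨τ, hτ, hne⟩ := hsep x y hxy
    exact ⟨_, ⟨τ, ⟨fun t ht => hLT t ht τ hτ, fun t ht => hLT t ht _ (hstar τ hτ)⟩, rfl⟩, hne⟩
  have hall : ∀ s, s ∈ L := by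
    intro s
    have h2 : s ∈ closure ((𝒮 : Set C(D, ℂ))) := by
      have : s ∈ 𝒮.topologicalClosure := by rw [h𝒮]; trivial
      exact this
    refine closure_minimal (fun s hs => ?_) hLc h2
    have := hs.1 1 hL1
    rwa [one_mul] at this
  intro v w hv hw
  have := hall t
  rw [hL] at this
  exact this v w hv hw

end Vale.Agent.P092.H179.A
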