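import Vale.Agent.P092.H179.A.Ins
import Vale.Agent.P092.H437.P2Alg

/-!
P092 (helper179), [CLA] `r ≥ 3`: step (a) of (I) over every local field: `key_aR`; then `key_bR`
and `pts_commR` = `H437.P2.key_b` and `H437.P2.pts_comm` without total disconnectedness.
-/

set_option linter.all false

open Matrix Set Topology Module

namespace Vale.Agent.P092.H179.A

open Vale.Agent.P092.H437.P2
open Vale.Agent.P092.H714.Cl
open Vale.Agent.P092.H370.Po
open Vale.Agent.P092.H100.Gr (Gr)
open Vale.Agent.P092.H232 (Nin two_ind split_inc join)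
open Vale.Agent.P092.H835 (exists_cut isClosed_meet isClosed_meet' exists_nhds_off)
open Vale.Agent.P092.H218.NC (tsupport_star nin_swap exists_line eq_of_le₀)

/-- the further properties of the target: common parts are rational functions, perpendicularity in
maximal elements -/
structure TgM (N : ℕ) (Y : ℕ → Type*) [∀ j, TopologicalSpace (Y j)] [∀ j, CompactSpace (Y j)]
    [∀ j, T2Space (Y j)] (In : ∀ i j, Y i → Y j → Prop) (O : ∀ j, Y 1 → Y j → Prop) : Prop where
  mt : ∀ j i, Meet (In j (j + 1)) (In j i) (In (j + 1) i)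
  cap : ∀ j i (z : Y (j + 1)) (m : Y i) (x x' : Y j), ¬ In (j + 1) i z m → In j (j + 1) x z →
    In j i x m → In j (j + 1) x' z → In j i x' m → x = x'
  ptO : ∀ (b : Y 1) (q : Y (N + 1)) (m : Y N) (c : Y 1), ¬ In 1 (N + 1) b q → In N (N + 1) m q →
    O N b m → In 1 (N + 1) c q → O 1 b c → In 1 N c m
  perp : ∀ j (b : Y 1) (m : Y j) (p : Y (N + 1)), In 1 (N + 1) b p → In j (N + 1) m p → O j b m
  dim : ∀ (q : Y (N + 1)) (m : Y N), ¬ In (N + 1) N q m

variable {n : Type} [Fintype n] [DecidableEq n] {k : Type} [Field k]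
  {σ : k →+* k} {ε : k} {J : Matrix n n k}
  {Y : ℕ → Type*} [∀ j, TopologicalSpace (Y j)] [∀ j, CompactSpace (Y j)] [∀ j, T2Space (Y j)]
  {K : Type*} [NormedAddCommGroup K] [InnerProductSpace ℂ K] [CompleteSpace K]
  {In : ∀ i j, Y i → Y j → Prop} {O : ∀ j, Y 1 → Y j → Prop}
  {G : ∀ j, SGr σ J j → (C(Y j, ℂ) →⋆ₐ[ℂ] (K →L[ℂ] K))} {N : ℕ}

theorem zmul {a b : K →L[ℂ] K} (h : a * b = 0) (T : K →L[ℂ] K) : a * (b * T) = 0 := by
  rw [← mul_assoc, h, zero_mul]

section perp

variable {X Z W : Type*} [TopologicalSpace X] [CompactSpace X] [T2Space X]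
  [TopologicalSpace Z] [CompactSpace Z] [T2Space Z]
  [TopologicalSpace W] [CompactSpace W] [T2Space W]

/-- two calculi in a common one are related, also with a middle operator -/
theorem perp_mid {I : X → Z → Prop} {I' : W → Z → Prop} {R : W → X → Prop}
    (hI : IsClosed {q : X × Z | I q.1 q.2}) (hI' : IsClosed {q : W × Z | I' q.1 q.2})
    (hR : ∀ x y z, I x z → I' y z → R y x) {b : C(X, ℂ) →⋆ₐ[ℂ] (K →L[ℂ] K)}
    {l : C(W, ℂ) →⋆ₐ[ℂ] (K →L[ℂ] K)} {p : C(Z, ℂ) →⋆ₐ[ℂ] (K →L[ℂ] K)} {S : K →L[ℂ] K}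
    (cb : ∀ a f, Commute (b a) (p f)) (ib : ∀ a f, Nin I a f → b a * p f = 0)
    (cl : ∀ a f, Commute (l a) (p f)) (il : ∀ a f, Nin I' a f → l a * p f = 0)
    (cS : ∀ f, Commute S (p f))
    (a : C(W, ℂ)) (f : C(X, ℂ)) (h : Nin R a f) : b f * (S * l a) = 0 := by
  refine two_ind (A := K →L[ℂ] K) (S₁ := tsupport ⇑f) (S₂ := tsupport ⇑a)
    (fun f a => b f * (S * l a)) (fun u' u'' a' => by simp only [map_add, add_mul])
    (fun u' a' a'' => by simp only [map_add, mul_add])
    (isClosed_tsupport _).isCompact (isClosed_tsupport _).isCompact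
    (fun x hx y hy => ?_) f a subset_rfl subset_rfl
  obtain ⟨v₁, v₂, hv, O, V, hO, hxO, hV, hyV, e1, e2⟩ := split_inc hI hI' (x := x) (y := y)
    (1 : C(Z, ℂ)) fun z _ h1 h2 => h y hy x hx (hR x y z h1 h2)
  refine ⟨O, V, hO, hxO, hV, hyV, fun f' a' hf' ha' => ?_⟩
  have d1 : b f' * p v₁ = 0 := ib _ _ (e1 _ hf')
  have d2 : l a' * p v₂ = 0 := il _ _ (e2 _ ha')
  have d3 : p v₁ + p v₂ = 1 := by rw [← map_add, ← hv, map_one]
  have d4 : b f' * (S * l a') * p v₁ = 0 := by
    rw [mul_assoc, mul_assoc, (cl a' v₁).eq, ← mul_assoc S, (cS v₁).eq, ← mul_assoc, ← mul_assoc,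
      d1, zero_mul, zero_mul]
  have d5 : b f' * (S * l a') * p v₂ = 0 := by
    rw [mul_assoc, mul_assoc, d2, mul_zero, mul_zero]
  calc b f' * (S * l a') = b f' * (S * l a') * (p v₁ + p v₂) := by rw [d3, mul_one]
    _ = 0 := by rw [mul_add, d4, d5, add_zero]

end perp

/-- the induction step -/
theorem ind_step (hT : Tg Y In) (hM : TgM N Y In O) (hG : CalP (N + 1) In G) {j : ℕ} (hj : 1 ≤ j)
    (hjN : j ≤ N) {M : SGr σ J N} {Z : SGr σ J (j + 1)} {H Q : SGr σ J j} (hQZ : Inc Q Z)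
    (hQM : Inc Q M) (hHZ : Inc H Z) (hne : H ≠ Q) {W₀ : K →L[ℂ] K}
    (ih : ∀ v w, Nin (In j N) v w → G j H v * G N M w * W₀ = 0) (v : C(Y (j + 1), ℂ))
    (w : C(Y N, ℂ)) (h : Nin (In (j + 1) N) v w) : G (j + 1) Z v * G N M w * W₀ = 0 := by
  have main : ∀ u t : C(Y j, ℂ), Disjoint (tsupport ⇑u) (tsupport ⇑t) →
      G j H u * G j Q t * (G (j + 1) Z v * G N M w * W₀) = 0 := by
    intro u t hut
    refine two_ind (A := K →L[ℂ] K) (S₁ := tsupport ⇑v) (S₂ := tsupport ⇑w)
      (fun v w => G j H u * G j Q t * (G (j + 1) Z v * G N M w * W₀))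
      (fun u' u'' a' => by simp only [map_add, mul_add, add_mul])
      (fun u' a' a'' => by simp only [map_add, mul_add, add_mul])
      (isClosed_tsupport _).isCompact (isClosed_tsupport _).isCompact
      (fun z hz m hm => ?_) v w subset_rfl subset_rfl
    have hzm : ¬ In (j + 1) N z m := h z hz m hm
    have hI₁ : IsClosed {q : Y (j + 1) × Y j | In j (j + 1) q.2 q.1} := hT.closed' j (j + 1)
    have hI₂ : IsClosed {q : Y N × Y j | In j N q.2 q.1} := hT.closed' j N
    have qz := hG.com j (j + 1) hj (by omega) (by omega) Q Z hQZ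
    have qm := hG.com j N hj hjN (by omega) Q M hQM
    have hz' := hG.com j (j + 1) hj (by omega) (by omega) H Z hHZ
    by_cases hc : ∀ x ∈ tsupport ⇑t, In j (j + 1) x z → In j N x m → False
    · obtain ⟨t₁, t₂, ht, U, V, hU, hzU, hV, hmV, e1, e2⟩ :=
        split_inc (I₁ := fun z x => In j (j + 1) x z) (I₂ := fun m x => In j N x m) hI₁ hI₂
          (x := z) (y := m) t hc
      refine ⟨U, V, hU, hzU, hV, hmV, fun v' w' hv' hw' => ?_⟩
      have d1 : G j Q t₁ * G (j + 1) Z v' = 0 :=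
        hG.inc j (j + 1) hj (by omega) (by omega) Q Z hQZ _ _
          fun x hx y hy => e1 v' hv' y hy x hx
      have d2 : G j Q t₂ * G N M w' = 0 :=
        hG.inc j N hj hjN (by omega) Q M hQM _ _ fun x hx y hy => e2 w' hw' y hy x hx
      have d3 : G j Q t * (G (j + 1) Z v' * G N M w') = 0 := by
        rw [ht, map_add, add_mul, ← mul_assoc, d1, zero_mul, zero_add, ← mul_assoc,
          (qz t₂ v').eq, mul_assoc, d2, mul_zero]
      calc G j H u * G j Q t * (G (j + 1) Z v' * G N M w' * W₀) =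
          G j H u * (G j Q t * (G (j + 1) Z v' * G N M w')) * W₀ := by simp only [mul_assoc]
        _ = 0 := by rw [d3, mul_zero, zero_mul]
    · push Not at hc
      obtain ⟨x₀, hx₀, h1, h2, -⟩ := hc
      obtain ⟨u₁, u₂, hu, U, V, hU, hzU, hV, hmV, e1, e2⟩ :=
        split_inc (I₁ := fun z x => In j (j + 1) x z) (I₂ := fun m x => In j N x m) hI₁ hI₂
          (x := z) (y := m) u (fun x hx h3 h4 => by
            rw [hM.cap j N z m x x₀ hzm h3 h4 h1 h2] at hx
            exact disjoint_left.1 hut hx hx₀)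
      obtain ⟨U', V', hU', hV', hzU', hmV', e3⟩ := exists_nhds_off (hT.closed (j + 1) N)
        (S := {z}) (T := {m}) isClosed_singleton isClosed_singleton (by
          rintro x rfl y rfl
          exact hzm)
      refine ⟨U ∩ U', V ∩ V', hU.inter hU', ⟨hzU, hzU' rfl⟩, hV.inter hV', ⟨hmV, hmV' rfl⟩,
        fun v' w' hv' hw' => ?_⟩
      have d1 : G j H u₁ * G (j + 1) Z v' = 0 :=
        hG.inc j (j + 1) hj (by omega) (by omega) H Z hHZ _ _
          fun x hx y hy => e1 v' (hv'.trans inter_subset_left) y hy x hx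
      have d2 : G j H u₂ * G j Q t * G (j + 1) Z v' * G N M w' * W₀ = 0 := by
        refine ins (hM.mt j N) (hT.closed j (j + 1)) (hT.closed j N) (fun f g => qz f g)
          (fun f g => qm f g)
          (fun f g hn => hG.inc j (j + 1) hj (by omega) (by omega) Q Z hQZ f g hn)
          (fun f g hn => hG.inc j N hj hjN (by omega) Q M hQM f g hn)
          (X := G j H u₂) (Y := W₀) (fun f => hz' u₂ f)
          (S := {y | ∃ x ∈ tsupport ⇑u₂, In j N x y}ᶜ)
          (isClosed_meet (hT.closed j N) (isClosed_tsupport _)).isOpen_compl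
          (fun w'' hw'' => ih u₂ w'' fun x hx y hy hxy => hw'' hy ⟨x, hx, hxy⟩) t v' w' ?_ ?_
        · exact fun x hx y hy => e3 x (hv' hx).2 y (hw' hy).2
        · rintro y hy ⟨x, hx, hxy⟩
          exact e2 w' (hw'.trans inter_subset_left) y hy x hx hxy
      calc G j H u * G j Q t * (G (j + 1) Z v' * G N M w' * W₀) =
          G j H u₁ * (G j Q t * G (j + 1) Z v') * (G N M w' * W₀) +
            G j H u₂ * G j Q t * G (j + 1) Z v' * G N M w' * W₀ := by
            rw [hu, map_add, add_mul, add_mul]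
            simp only [mul_assoc]
        _ = 0 := by
            rw [d2, add_zero, (qz t v').eq]
            simp only [mul_assoc]
            exact zmul d1 _
  ext ξ
  have hjr : j < N + 1 := by omega
  refine hG.agr j hj hjr H Q hne ⟨Z, hHZ, hQZ⟩ _ fun f => ?_
  have h1 := H218.loc (G j H) (G j Q) (1 : K →L[ℂ] K)
    ((G (j + 1) Z v * G N M w * W₀) ξ) (fun a b hab => by
      have := congrArg (fun T : K →L[ℂ] K => T ξ) (main a b hab)
      simpa only [ContinuousLinearMap.mul_apply, ContinuousLinearMap.one_apply,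
        ContinuousLinearMap.zero_apply] using this) f
  simpa only [ContinuousLinearMap.one_apply] using h1.symm

/-- `Z ∩ M` for `Z ⊂ Q`, `M` a hyperplane of `Q`, `Z ⊄ M` -/
theorem exists_capM {j : ℕ} {Q : SGr σ J (N + 1)} {M : SGr σ J N} {Z : SGr σ J (j + 1)}
    (hMQ : Inc M Q) (hZQ : Inc Z Q) (hZM : ¬ Inc Z M) :
    ∃ X : SGr σ J j, Inc X Z ∧ Inc X M := by
  have h1 := Submodule.finrank_sup_add_finrank_inf_eq Z.S M.S
  rw [Z.dim, M.dim] at h1
  have h2 : finrank k ↥(Z.S ⊔ M.S) ≤ N + 1 :=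
    (Submodule.finrank_mono (sup_le hZQ hMQ)).trans_eq Q.dim
  have h3 : M.S < Z.S ⊔ M.S := lt_of_le_of_ne le_sup_right fun he => hZM (by
    change Z.S ≤ M.S
    rw [he]
    exact le_sup_left)
  have h4 := Submodule.finrank_lt_finrank_of_lt h3
  rw [M.dim] at h4
  exact ⟨SGr.mk' (Z.S ⊓ M.S) (Z.sing.mono inf_le_left) (by omega), inf_le_left, inf_le_right⟩

/-- **Step (a) over every local field.** -/
theorem key_aR (hT : Tg Y In) (hO : TgO (N + 1) Y In O) (hM : TgM N Y In O)
    (hG : CalP (N + 1) In G) (hK : Key0 (N + 1) O G) (hN : 1 ≤ N)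
    {P Q : SGr σ J (N + 1)} {M : SGr σ J N} {l : SGr σ J 2} {b : SGr σ J 1} (hlP : Inc l P)
    (hbP : Inc b P) (hbQ : Inc b Q) (hbl : ¬ Inc b l) (hMP : Inc M P) (hMQ : Inc M Q)
    (hQP : ¬ Inc Q P)
    (hQ : ∀ c : SGr σ J 1, Inc c Q → ¬ Inc c P → ¬ Col c l) (f : C(Y 2, ℂ))
    (s : C(Y (N + 1), ℂ)) (a : C(Y 1, ℂ)) (hn : Nin (In 1 (N + 1)) a s) :
    G (N + 1) Q s * G 2 l f * G 1 b a = 0 := by
  have r2 : 2 ≤ N + 1 := by omega
  have r1 : 1 ≤ N + 1 := by omega
  have cbP := hG.com 1 (N + 1) le_rfl r1 le_rfl b P hbP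
  have clP := hG.com 2 (N + 1) (by omega) r2 le_rfl l P hlP
  have cMP := hG.com N (N + 1) hN (by omega) le_rfl M P hMP
  have cMQ := hG.com N (N + 1) hN (by omega) le_rfl M Q hMQ
  -- step 0: the cut off
  have hD : IsClosed {y : Y (N + 1) | ∃ x ∈ tsupport ⇑a, In 1 (N + 1) x y} :=
    isClosed_meet (hT.closed 1 (N + 1)) (isClosed_tsupport _)
  obtain ⟨p, hp1, hp2, -⟩ := exists_cut hD (isClosed_tsupport ⇑s).isOpen_compl
    (fun y hy hys => by
      obtain ⟨x, hx, hxy⟩ := hy
      exact hn x hx y hys hxy)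
  have hsp : ∀ s' : C(Y (N + 1), ℂ), tsupport ⇑s' ⊆ (tsupport ⇑p)ᶜ →
      Nin (In (N + 1) (N + 1)) s' p := fun s' hs' x hx y hy hxy => by
    rw [hT.eq_of (N + 1) x y hxy] at hx
    exact hs' hx hy
  have hdead : G 1 b a * G (N + 1) P (1 - p) = 0 := by
    refine hG.inc 1 (N + 1) le_rfl r1 le_rfl b P hbP a (1 - p) fun x hx y hy hxy => ?_
    exact disjoint_left.1 hp2 hy ⟨x, hx, hxy⟩
  -- (★)
  have star : ∀ c : SGr σ J 1, Inc c Q → ¬ Inc c P → ∀ u w, Nin (In 1 N) u w →
      G 1 c u * G N M w * (G (N + 1) Q s * G (N + 1) P p * (G 2 l f * G 1 b a)) = 0 := by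
    intro c hcQ hcP u w huw
    have ccQ := hG.com 1 (N + 1) le_rfl r1 le_rfl c Q hcQ
    refine two_ind (A := K →L[ℂ] K) (S₁ := tsupport ⇑s) (S₂ := tsupport ⇑a)
      (fun s a => G 1 c u * G N M w * (G (N + 1) Q s * G (N + 1) P p * (G 2 l f * G 1 b a)))
      (fun u' u'' a' => by simp only [map_add, mul_add, add_mul])
      (fun u' a' a'' => by simp only [map_add, mul_add, add_mul])
      (isClosed_tsupport _).isCompact (isClosed_tsupport _).isCompact
      (fun q hq b₀ hb₀ => ?_) s a subset_rfl subset_rfl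
    have hbq : ¬ In 1 (N + 1) b₀ q := hn b₀ hb₀ q hq
    have hOq : ¬ O (N + 1) b₀ q := fun h => hbq (hO.max _ _ h)
    by_cases hc : ∀ m ∈ tsupport ⇑w, In N (N + 1) m q → O N b₀ m → False
    · obtain ⟨w₁, w₂, hw, U, V, hU, hqU, hV, hbV, e1, e2⟩ :=
        split_inc (I₁ := fun q m => In N (N + 1) m q) (I₂ := fun b m => O N b m)
          (hT.closed' N (N + 1)) (hO.closed N) (x := q) (y := b₀) w hc
      refine ⟨U, V, hU, hqU, hV, hbV, fun s' a' hs' ha' => ?_⟩
      have d1 : G N M w₁ * G (N + 1) Q s' = 0 :=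
        hG.inc N (N + 1) hN (by omega) le_rfl M Q hMQ _ _
          fun x hx y hy => e1 s' hs' y hy x hx
      have d2 : G N M w₂ * (G 2 l f * G 1 b a') = 0 :=
        perp_mid (I := fun x y => In N (N + 1) x y) (I' := fun x y => In 1 (N + 1) x y)
          (R := fun x y => O N x y) (hT.closed N (N + 1)) (hT.closed 1 (N + 1))
          (fun x y z h1 h2 => hM.perp N y x z h2 h1) (b := G N M) (l := G 1 b) (p := G (N + 1) P)
          (S := G 2 l f) cMP
          (fun f g hn => hG.inc N (N + 1) hN (by omega) le_rfl M P hMP f g hn) cbP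
          (fun f g hn => hG.inc 1 (N + 1) le_rfl r1 le_rfl b P hbP f g hn) (fun g => clP f g)
          a' w₂ (e2 a' ha')
      have d3 : G N M w₁ * (G (N + 1) Q s' * G (N + 1) P p * (G 2 l f * G 1 b a')) = 0 := by
        simp only [mul_assoc]
        exact zmul d1 _
      have d4 : G N M w₂ * (G (N + 1) Q s' * G (N + 1) P p * (G 2 l f * G 1 b a')) = 0 := by
        calc _ = G (N + 1) Q s' * G (N + 1) P p * (G N M w₂ * (G 2 l f * G 1 b a')) := by
              rw [← mul_assoc (G N M w₂), ← mul_assoc (G N M w₂), (cMQ w₂ s').eq,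
                mul_assoc (G (N + 1) Q s'), (cMP w₂ p).eq]
              simp only [mul_assoc]
          _ = 0 := by rw [d2, mul_zero]
      rw [mul_assoc, hw, map_add, add_mul, d3, d4, add_zero, mul_zero]
    · push Not at hc
      obtain ⟨m₀, hm₀, h1, h2, -⟩ := hc
      obtain ⟨u₁, u₂, hu, U, V, hU, hqU, hV, hbV, e1, e2⟩ :=
        split_inc (I₁ := fun q c => In 1 (N + 1) c q) (I₂ := fun b c => O 1 b c)
          (hT.closed' 1 (N + 1)) (hO.closed 1) (x := q) (y := b₀) u
          (fun x hx h3 h4 => huw x hx m₀ hm₀ (hM.ptO b₀ q m₀ x hbq h1 h2 h3 h4))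
      refine ⟨U ∩ (tsupport ⇑p)ᶜ, V, hU.inter (isClosed_tsupport _).isOpen_compl,
        ⟨hqU, fun h => hp1 h hq⟩, hV, hbV, fun s' a' hs' ha' => ?_⟩
      have d1 : G 1 c u₁ * G (N + 1) Q s' = 0 :=
        hG.inc 1 (N + 1) le_rfl r1 le_rfl c Q hcQ _ _
          fun x hx y hy => e1 s' (hs'.trans inter_subset_left) y hy x hx
      have d2 : G 1 c u₂ * G 2 l f * G 1 b a' = 0 := by
        refine hK P c l b hcP hlP hbP ?_ (hQ c hcQ hcP) hbl u₂ f a' (e2 a' ha')
        exact fun x hx y hy => Q.sing x (hcQ hx) y (hbQ hy)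
      have d3 : G 1 c u₂ * G N M w * G (N + 1) Q s' * G (N + 1) P p * (G 2 l f * G 1 b a') = 0 := by
        refine ins (hM.mt N (N + 1)) (hT.closed N (N + 1)) (hT.closed N (N + 1))
          (fun f g => cMQ f g) (fun f g => cMP f g)
          (fun f g hn => hG.inc N (N + 1) hN (by omega) le_rfl M Q hMQ f g hn)
          (fun f g hn => hG.inc N (N + 1) hN (by omega) le_rfl M P hMP f g hn)
          (X := G 1 c u₂) (Y := G 2 l f * G 1 b a') (fun g => ccQ u₂ g) isOpen_univ
          (fun w' _ => ?_) w s' p (hsp s' (hs'.trans inter_subset_right)) (subset_univ _)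
        calc G 1 c u₂ * G (N + 1) P w' * (G 2 l f * G 1 b a') =
            G 1 c u₂ * G 2 l f * G 1 b a' * G (N + 1) P w' := by
              rw [mul_assoc, ← mul_assoc (G (N + 1) P w'), ← (clP f w').eq, mul_assoc (G 2 l f),
                ← (cbP a' w').eq]
              simp only [mul_assoc]
          _ = 0 := by rw [d2, zero_mul]
      calc G 1 c u * G N M w * (G (N + 1) Q s' * G (N + 1) P p * (G 2 l f * G 1 b a')) =
          G 1 c u₁ * (G N M w * G (N + 1) Q s') * (G (N + 1) P p * (G 2 l f * G 1 b a')) +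
            G 1 c u₂ * G N M w * G (N + 1) Q s' * G (N + 1) P p * (G 2 l f * G 1 b a') := by
            rw [hu, map_add, add_mul, add_mul]
            simp only [mul_assoc]
        _ = 0 := by
            rw [d3, add_zero, (cMQ w s').eq]
            simp only [mul_assoc]
            exact zmul d1 _
  -- the induction
  have all : ∀ j, 1 ≤ j → j ≤ N + 1 → ∀ Z : SGr σ J j, Inc Z Q → ¬ Inc Z P → ∀ v w,
      Nin (In j N) v w →
      G j Z v * G N M w * (G (N + 1) Q s * G (N + 1) P p * (G 2 l f * G 1 b a)) = 0 := by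
    intro j hj
    induction j, hj using Nat.le_induction with
    | base => exact fun _ c hcQ hcP u w h => star c hcQ hcP u w h
    | succ j hj ih =>
      intro hjr Z hZQ hZP v w h
      obtain ⟨H₁, H₂, hne, h1, h2, h3, h4⟩ := exists_two_hyp hj Z P hZP
      obtain ⟨X, hXZ, hXM⟩ := exists_capM hMQ hZQ fun h => hZP (h.trans hMP)
      exact ind_step hT hM hG hj (by omega) hXZ hXM h1
        (fun he => h3 (he ▸ hXM.trans hMP)) (fun v w hvw => ih (by omega) H₁ (h1.trans hZQ) h3 v w hvw)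
        v w h
  have h0 : G (N + 1) Q s * G (N + 1) P p * (G 2 l f * G 1 b a) = 0 := by
    have h1 := all (N + 1) r1 le_rfl Q (Inc.refl Q) hQP 1 1 fun x _ y _ => hM.dim x y
    rwa [map_one, map_one, one_mul, one_mul] at h1
  calc G (N + 1) Q s * G 2 l f * G 1 b a =
      G (N + 1) Q s * (G 2 l f * (G 1 b a * (G (N + 1) P p + G (N + 1) P (1 - p)))) := by
        rw [← map_add, add_sub_cancel, map_one, mul_one, mul_assoc]
    _ = G (N + 1) Q s * G (N + 1) P p * (G 2 l f * G 1 b a) := by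
        rw [mul_add, hdead, add_zero, (cbP a p).eq, ← mul_assoc (G 2 l f), (clP f p).eq]
        simp only [mul_assoc]
    _ = 0 := h0

/-- step (b): `Key₁` inside the maximal subspace `P` -/
theorem key_bR (hF : Frm σ ε J) (hN : 2 ≤ N) (hT : Tg Y In) (hO : TgO (N + 1) Y In O)
    (hM : TgM N Y In O) (hG : CalP (N + 1) In G) (hK : Key0 (N + 1) O G) {P : SGr σ J (N + 1)}
    {M : SGr σ J N} {l : SGr σ J 2} {b : SGr σ J 1} (hMP : Inc M P) (hlP : Inc l P)
    (hlM : ¬ Inc l M) (hbM : Inc b M) (hbl : ¬ Inc b l) (u) (g) (a) (h : Nin (In 1 N) a u) :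
    G N M u * G 2 l g * G 1 b a = 0 := by
  obtain ⟨Q, hMQ, hQP, hQ⟩ := exists_Q hF hMP hlP hlM
  have hbP := hbM.trans hMP
  have hbQ := hbM.trans hMQ
  have hQP' : ¬ Inc Q P := fun h => hQP (SGr.eq_of_le h)
  have key : ∀ (f : C(Y 2, ℂ)) (s : C(Y (N + 1), ℂ)) (a : C(Y 1, ℂ)),
      Nin (In 1 (N + 1)) a s → G (N + 1) Q s * G 2 l f * G 1 b a = 0 := fun f s a hn =>
    key_aR hT hO hM hG hK (by omega) hlP hbP hbQ hbl hMP hMQ hQP' hQ f s a hn
  have main := join (I₁ := fun x z => In 1 (N + 1) x z) (I₂ := fun x z => In N (N + 1) x z)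
    (J := fun x y => In 1 N x y) (hT.closed 1 (N + 1)) (hT.closed N (N + 1))
    (fun x y hxy z z' h1 h2 h3 h4 => hT.join 1 N x y hxy z z' h1 h2 h3 h4)
    (G 1 b) (G N M) (G 2 l (star g)) (G (N + 1) P) (G (N + 1) Q)
    (fun u v => hG.com 1 (N + 1) (by omega) (by omega) le_rfl b P hbP u v)
    (fun a v => hG.com N (N + 1) (by omega) (by omega) le_rfl M P hMP a v)
    (fun v => hG.com 2 (N + 1) (by omega) (by omega) le_rfl l P hlP _ v)
    (fun a s => hG.com N (N + 1) (by omega) (by omega) le_rfl M Q hMQ a s)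
    (fun u v huv => hG.inc 1 (N + 1) (by omega) (by omega) le_rfl b P hbP u v huv)
    (fun a v hav => hG.inc N (N + 1) (by omega) (by omega) le_rfl M P hMP a v hav)
    (fun a s has => hG.inc N (N + 1) (by omega) (by omega) le_rfl M Q hMQ a s has)
    (hG.agrM P Q hQP.symm ⟨M, hMP, hMQ⟩) (D := univ) isOpen_univ
    (fun u' s _ hus => ?_) (star a) (star u) (subset_univ _) ?_
  · have h2 := congrArg star main
    simpa only [star_mul, map_star, star_star, star_zero, mul_assoc] using h2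
  · have h1 := key g (star s) (star u') (fun x hx y hy => by
      rw [tsupport_star] at hx hy
      exact hus x hx y hy)
    have h2 := congrArg star h1
    simpa only [star_mul, map_star, star_star, star_zero, mul_assoc] using h2
  · intro x hx y hy
    rw [tsupport_star] at hx hy
    exact h x hx y hy

theorem cal_embR (hG : CalP (N + 1) In G) (P : SGr σ J (N + 1)) (hN : 2 ≤ N) :
    Cal In (fun j X => G j (emb P X)) where
  com i j h1 h2 h3 X X' h f f' := hG.com i j h1 h2 (by omega) _ _ ((emb_inc P).2 h) f f'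
  inc i j h1 h2 h3 X X' h u f := hG.inc i j h1 h2 (by omega) _ _ ((emb_inc P).2 h) u f
  agr₁ a b hab := by
    obtain ⟨l, hal, hbl⟩ := exists_line a b hab
    exact hG.agr 1 le_rfl (by omega) _ _ (fun h => hab (emb_inj P h))
      ⟨emb P l, (emb_inc P).2 hal, (emb_inc P).2 hbl⟩
  agr j h1 h2 A B hAB hX := by
    obtain ⟨X, hXA, hXB⟩ := hX
    have h3 : ¬ A.1 ≤ B.1 := fun h => hAB (eq_of_le₀ h)
    have h4 := Submodule.finrank_sup_add_finrank_inf_eq A.1 B.1
    have h5 : finrank k X.1 ≤ finrank k ↥(A.1 ⊓ B.1) := Submodule.finrank_mono (le_inf hXA hXB)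
    have h6 := Vale.Agent.P092.H218.NC.finrank_sup_ge h3
    rw [A.2, B.2] at h4
    rw [B.2] at h6
    rw [X.2] at h5
    have h7 : finrank k ↥(A.1 ⊔ B.1) = j + 1 + 1 := by omega
    let C : Gr k (Fin (N + 1)) (j + 1 + 1) := ⟨A.1 ⊔ B.1, h7⟩
    exact hG.agr (j + 1) (by omega) (by omega) _ _ (fun h => hAB (emb_inj P h))
      ⟨emb P C, (emb_inc P).2 (le_sup_left : A.1 ≤ C.1),
        (emb_inc P).2 (le_sup_right : B.1 ≤ C.1)⟩

/-- **orthogonal points commute**, every local field -/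
theorem pts_commR (hF : Frm σ ε J) (hN : 2 ≤ N) (Y₀ : SGr σ J (N + 1)) (hT : Tg Y In)
    (hO : TgO (N + 1) Y In O) (hM : TgM N Y In O) (hG : CalP (N + 1) In G)
    (hK : Key0 (N + 1) O G) (a b : SGr σ J 1) (hab : Col a b) (f g) :
    Commute (G 1 a f) (G 1 b g) := by
  -- a maximal subspace containing both points
  obtain ⟨P, haP, hbP⟩ : ∃ P : SGr σ J (N + 1), Inc a P ∧ Inc b P := by
    have hs : Sing σ J (a.S ⊔ b.S) := by
      unfold Sing
      rw [ort_sup_left, ort_sup_right, ort_sup_right]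
      exact ⟨⟨a.sing, hab⟩, hab.symm hF, b.sing⟩
    have hd : finrank k ↥(a.S ⊔ b.S) ≤ 2 := by
      have := Submodule.finrank_add_le_finrank_add_finrank a.S b.S
      rw [a.dim, b.dim] at this
      exact this
    obtain ⟨P, hP⟩ := exists_inc_ge hF (l := N + 1) (by omega) le_rfl
      (SGr.mk' (a.S ⊔ b.S) hs rfl) Y₀
    exact ⟨P, le_sup_left.trans hP, le_sup_right.trans hP⟩
  obtain ⟨a', rfl⟩ := emb_surj P a haP
  obtain ⟨b', rfl⟩ := emb_surj P b hbP
  refine points_comm (Y := Y) (In := In) (G := fun j X => G j (emb P X)) hN hT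
    (cal_embR hG P hN) ?_ a' b' f g
  intro C l b hbC hlC hbl u g a hn
  exact key_bR hF hN hT hO hM hG hK (emb_P P C) (emb_P P l) (fun h => hlC ((emb_inc P).1 h))
    ((emb_inc P).2 hbC) (fun h => hbl ((emb_inc P).1 h)) u g a hn

end Vale.Agent.P092.H179.A
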