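import Vale.Agent.P092.H179.A.KeyA
import Vale.Agent.P092.H437.R.Pts
import Vale.Agent.P092.H315P.Pr.Meet

/-!
P092 (helper179), [CLA] `r ≥ 3`: the target `SGr σ J j` over `ℝ`, `ℂ`: `TgM`, and
`keyQ_of : CalP → Key0 → KeyQ`, `pts_commA`.
-/

set_option linter.all false

open Matrix Set Topology Module

namespace Vale.Agent.P092.H179.A

open Vale.Agent.P092.H437.P2 (Tg TgO CalP Key0 tgS)
open Vale.Agent.P092.H437 (R.KeyQ)
open Vale.Agent.P092.H714.Cl
open Vale.Agent.P092.H370.Po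
open Vale.Agent.P092.H370.Fo (Fo)
open Vale.Agent.P092.H100.Gr (Gr)
open Vale.Agent.P092.H232 (Nin)
open Vale.Agent.P092.H702.PG (ort_join uniq sup_eq)

variable {n : Type} [Fintype n] [DecidableEq n] {k : Type} [NontriviallyNormedField k]
  [ProperSpace k] {σ : k →+* k} {ε : k} {J : Matrix n n k} {N : ℕ}

theorem tgM_of [Fact (Continuous σ)] (hT : TgO (N + 1) (SGr σ J) (fun i j => Inc (i := i) (j := j))
      (fun j => Col (i := 1) (j := j)))
    (hN : 1 ≤ N) (mt : ∀ j i, Meet (D := SGr σ J j) (A := SGr σ J (j + 1)) (B := SGr σ J i)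
      (fun x y => Inc x y) (fun x y => Inc x y) (fun x y => Inc x y)) :
    TgM N (SGr σ J) (fun i j => Inc (i := i) (j := j)) (fun j => Col (i := 1) (j := j)) where
  mt j i := mt j i
  cap j i z m x x' hz h1 h2 h3 h4 := by
    by_contra hne
    apply hz
    change z.S ≤ m.S
    rw [← sup_eq hne h1 h3]
    exact sup_le h2 h4
  ptO b q m c hbq hmq hbm hcq hbc := by
    by_contra hcm
    apply hbq
    refine hT.max b q ?_
    have h1 : m.S < m.S ⊔ c.S := lt_of_le_of_ne le_sup_left fun he => hcm (by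
      change c.S ≤ m.S
      rw [he]
      exact le_sup_right)
    have h2 := Submodule.finrank_lt_finrank_of_lt h1
    rw [m.dim] at h2
    have h3 : m.S ⊔ c.S = q.S :=
      Submodule.eq_of_le_of_finrank_le (sup_le hmq hcq) (by rw [q.dim]; exact h2)
    change Ort σ J b.S q.S
    rw [← h3]
    exact ort_sup_right.2 ⟨hbm, hbc⟩
  perp j b m p hb hm := fun x hx y hy => p.sing x (hb hx) y (hm hy)
  dim q m h := by
    have := Submodule.finrank_mono (h : q.S ≤ m.S)
    rw [q.dim, m.dim] at this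
    omega

theorem meetS {τ : k →+* ℂ} (hτ : ∀ x, ‖τ x‖ = ‖x‖) (j i : ℕ) [Fact (Continuous σ)] :
    Meet (D := SGr σ J j) (A := SGr σ J (j + 1)) (B := SGr σ J i)
      (fun x y => Inc x y) (fun x y => Inc x y) (fun x y => Inc x y) :=
  Vale.Agent.P092.H315P.Pr.meet_inc hτ j i

/-- **step (a), archimedean target** -/
theorem keyQ_of [Fact (Continuous σ)] {τ : k →+* ℂ} (hτ : ∀ x, ‖τ x‖ = ‖x‖) (hF : Fo σ ε J)
    (hW : WI σ J (N + 1)) (hN : 1 ≤ N) {n' : Type} [Fintype n'] [DecidableEq n'] {F : Type}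
    [Field F] {σ' : F →+* F} {J' : Matrix n' n' F} {K : Type*} [NormedAddCommGroup K]
    [InnerProductSpace ℂ K] [CompleteSpace K]
    {G : ∀ j, SGr σ' J' j → (C(SGr σ J j, ℂ) →⋆ₐ[ℂ] (K →L[ℂ] K))}
    (hG : CalP (N + 1) (fun i j => Inc (i := i) (j := j)) G)
    (hK : Key0 (N + 1) (fun j => Col (i := 1) (j := j)) G) :
    R.KeyQ N (fun i j => Inc (σ := σ) (J := J) (i := i) (j := j)) G := by
  intro P Q M l b hMP hMQ hQP hlP hlM hbM hbl hQ s f a hn
  have hO := H437.O.tgOS (J := J) (σ := σ) Fact.out hF hW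
  exact key_aR tgS hO (tgM_of hO hN fun j i => meetS hτ j i) hG hK hN hlP (hbM.trans hMP)
    (hbM.trans hMQ) hbl hMP hMQ (fun h => hQP (SGr.eq_of_le h)) hQ f s a hn

/-- **orthogonal points commute**, archimedean target -/
theorem pts_commA [Fact (Continuous σ)] {τ : k →+* ℂ} (hτ : ∀ x, ‖τ x‖ = ‖x‖) (hF : Fo σ ε J)
    (hW : WI σ J (N + 1)) (hN : 2 ≤ N) {n' : Type} [Fintype n'] [DecidableEq n'] {F : Type}
    [Field F] {σ' : F →+* F} {ε' : F} {J' : Matrix n' n' F} (hF' : Fo σ' ε' J')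
    (Y₀ : SGr σ' J' (N + 1)) {K : Type*} [NormedAddCommGroup K]
    [InnerProductSpace ℂ K] [CompleteSpace K]
    {G : ∀ j, SGr σ' J' j → (C(SGr σ J j, ℂ) →⋆ₐ[ℂ] (K →L[ℂ] K))}
    (hG : CalP (N + 1) (fun i j => Inc (i := i) (j := j)) G)
    (hK : Key0 (N + 1) (fun j => Col (i := 1) (j := j)) G) (a b : SGr σ' J' 1) (hab : Col a b)
    (f g) : Commute (G 1 a f) (G 1 b g) :=
  H437.R.pts_commS hF' hN Y₀ hG (keyQ_of hτ hF hW (by omega) hG hK) a b hab f g

end Vale.Agent.P092.H179.A
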