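import Vale.Agent.P092.H232.Join

/-!
P092 (helper179), [CLA] `r ≥ 3`: the rectangle lemma.  A calculus `ν` which commutes with `ζ` and
`μ` and is incident with both: an identity between functions which holds on the relation holds for
the operators.  `ζ` and `μ` need not commute; any compact spaces.
-/

set_option linter.all false

open Set Topology

namespace Vale.Agent.P092.H179.A

open Vale.Agent.P092.H232 (Nin two_ind split_inc tsupport_mul_l tsupport_mul_r)
open Vale.Agent.P092.H835 (exists_cut isClosed_meet isClosed_meet')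
open Vale.Agent.P092.H218 (norm_sq_hom)

section cut

variable {X : Type*} [TopologicalSpace X] [CompactSpace X] [T2Space X]

/-- a function is small plus supported where it does not vanish -/
theorem cut_small (f : C(X, ℂ)) {ε : ℝ} (hε : 0 < ε) :
    ∃ f₁ f₂ : C(X, ℂ), f = f₁ + f₂ ∧ ‖f₁‖ ≤ ε ∧ ∀ x ∈ tsupport ⇑f₂, f x ≠ 0 := by
  have hF : IsClosed {x | ε / 2 ≤ ‖f x‖} := isClosed_le continuous_const (by fun_prop)
  have hW : IsOpen {x | ε / 4 < ‖f x‖} := isOpen_lt continuous_const (by fun_prop)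
  obtain ⟨χ, h1, h2, h3⟩ := exists_cut hF hW (fun x hx => by
    have : ε / 2 ≤ ‖f x‖ := hx
    change ε / 4 < ‖f x‖
    linarith)
  refine ⟨f * (1 - χ), f * χ, by ring, ?_, fun x hx h0 => ?_⟩
  · rw [ContinuousMap.norm_le _ hε.le]
    intro x
    by_cases hx : x ∈ {x | ε / 2 ≤ ‖f x‖}
    · have h4 : x ∉ tsupport (fun x => 1 - χ x) := fun h => disjoint_left.1 h2 h hx
      have h5 : 1 - χ x = 0 := by
        by_contra h0
        exact h4 (subset_tsupport _ h0)
      have : (f * (1 - χ)) x = 0 := by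
        simp only [ContinuousMap.mul_apply, ContinuousMap.sub_apply, ContinuousMap.one_apply, h5,
          mul_zero]
      rw [this, norm_zero]
      exact hε.le
    · have h4 : ‖f x‖ < ε / 2 := not_le.1 hx
      have h5 : ‖1 - χ x‖ ≤ 2 := by
        refine (norm_sub_le _ _).trans ?_
        rw [norm_one]
        linarith [h3 x]
      calc ‖(f * (1 - χ)) x‖ = ‖f x‖ * ‖1 - χ x‖ := by
            simp only [ContinuousMap.mul_apply, ContinuousMap.sub_apply, ContinuousMap.one_apply,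
              norm_mul]
        _ ≤ ε / 2 * 2 := mul_le_mul h4.le h5 (norm_nonneg _) (by linarith)
        _ = ε := by ring
  · have h4 : ε / 4 < ‖f x‖ := h1 (tsupport_mul_r _ _ hx)
    rw [h0, norm_zero] at h4
    linarith

end cut

section sm

variable {D A B K : Type*} [TopologicalSpace D] [CompactSpace D] [T2Space D]
  [TopologicalSpace A] [CompactSpace A] [T2Space A]
  [TopologicalSpace B] [CompactSpace B] [T2Space B]
  [NormedAddCommGroup K] [InnerProductSpace ℂ K] [CompleteSpace K]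

theorem norm_cal (π : C(A, ℂ) →⋆ₐ[ℂ] (K →L[ℂ] K)) (f : C(A, ℂ)) : ‖π f‖ ≤ ‖f‖ :=
  NonUnitalStarAlgHom.norm_apply_le π f

/-- `T` is small near the value `d₀` of `ν` -/
def Sm (ν : C(D, ℂ) →⋆ₐ[ℂ] (K →L[ℂ] K)) (d₀ : D) (T : K →L[ℂ] K) : Prop :=
  ∀ ε > 0, ∃ U : Set D, IsOpen U ∧ d₀ ∈ U ∧
    ∀ χ : C(D, ℂ), tsupport ⇑χ ⊆ U → ‖χ‖ ≤ 1 → ‖ν χ * T‖ ≤ ε

variable {ν : C(D, ℂ) →⋆ₐ[ℂ] (K →L[ℂ] K)} {d₀ : D}

theorem Sm.zero : Sm ν d₀ 0 := fun ε hε =>
  ⟨univ, isOpen_univ, mem_univ _, fun χ _ _ => by rw [mul_zero, norm_zero]; exact hε.le⟩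

theorem Sm.add {S T : K →L[ℂ] K} (hS : Sm ν d₀ S) (hT : Sm ν d₀ T) : Sm ν d₀ (S + T) := by
  intro ε hε
  obtain ⟨U, hU, hdU, h1⟩ := hS (ε / 2) (half_pos hε)
  obtain ⟨V, hV, hdV, h2⟩ := hT (ε / 2) (half_pos hε)
  refine ⟨U ∩ V, hU.inter hV, ⟨hdU, hdV⟩, fun χ h h' => ?_⟩
  rw [mul_add]
  refine (norm_add_le _ _).trans ?_
  linarith [h1 χ (h.trans inter_subset_left) h', h2 χ (h.trans inter_subset_right) h']

theorem Sm.sum {ι : Type*} (s : Finset ι) {T : ι → (K →L[ℂ] K)} (h : ∀ i ∈ s, Sm ν d₀ (T i)) :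
    Sm ν d₀ (∑ i ∈ s, T i) := by
  classical
  induction s using Finset.induction_on with
  | empty => rw [Finset.sum_empty]; exact Sm.zero
  | insert a s ha ih =>
    rw [Finset.sum_insert ha]
    exact (h a (Finset.mem_insert_self a s)).add
      (ih fun i hi => h i (Finset.mem_insert_of_mem hi))

theorem Sm.mul_right {T : K →L[ℂ] K} (h : Sm ν d₀ T) (S : K →L[ℂ] K) : Sm ν d₀ (T * S) := by
  intro ε hε
  obtain ⟨U, hU, hd, h1⟩ := h (ε / (1 + ‖S‖)) (by positivity)
  refine ⟨U, hU, hd, fun χ hχ h' => ?_⟩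
  rw [← mul_assoc]
  calc ‖ν χ * T * S‖ ≤ ‖ν χ * T‖ * ‖S‖ := norm_mul_le _ _
    _ ≤ ε / (1 + ‖S‖) * (1 + ‖S‖) :=
        mul_le_mul (h1 χ hχ h') (by linarith) (norm_nonneg _) (by positivity)
    _ = ε := div_mul_cancel₀ _ (by positivity)

theorem Sm.mul_left {T : K →L[ℂ] K} (h : Sm ν d₀ T) {S : K →L[ℂ] K} (hS : ∀ t, Commute (ν t) S) :
    Sm ν d₀ (S * T) := by
  intro ε hε
  obtain ⟨U, hU, hd, h1⟩ := h (ε / (1 + ‖S‖)) (by positivity)
  refine ⟨U, hU, hd, fun χ hχ h' => ?_⟩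
  rw [← mul_assoc, (hS χ).eq, mul_assoc]
  calc ‖S * (ν χ * T)‖ ≤ ‖S‖ * ‖ν χ * T‖ := norm_mul_le _ _
    _ ≤ (1 + ‖S‖) * (ε / (1 + ‖S‖)) :=
        mul_le_mul (by linarith) (h1 χ hχ h') (norm_nonneg _) (by positivity)
    _ = ε := mul_div_cancel₀ _ (by positivity)

theorem Sm.self (t : C(D, ℂ)) (ht : t d₀ = 0) : Sm ν d₀ (ν t) := by
  intro ε hε
  refine ⟨{d | ‖t d‖ < ε}, isOpen_lt (by fun_prop) continuous_const, ?_, fun χ hχ h' => ?_⟩
  · change ‖t d₀‖ < ε
    rw [ht, norm_zero]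
    exact hε
  · rw [← map_mul]
    refine (norm_cal ν _).trans ?_
    rw [ContinuousMap.norm_le _ hε.le]
    intro d
    by_cases hd : χ d = 0
    · rw [ContinuousMap.mul_apply, hd, zero_mul, norm_zero]
      exact hε.le
    · have h1 : ‖t d‖ < ε := hχ (subset_tsupport _ hd)
      rw [ContinuousMap.mul_apply, norm_mul]
      calc ‖χ d‖ * ‖t d‖ ≤ 1 * ε :=
            mul_le_mul ((ContinuousMap.norm_coe_le_norm χ d).trans h') h1.le (norm_nonneg _)
              zero_le_one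
        _ = ε := one_mul _

theorem Sm.inc {R : D → A → Prop} (hR : IsClosed {q : D × A | R q.1 q.2})
    {ζ : C(A, ℂ) →⋆ₐ[ℂ] (K →L[ℂ] K)} (i : ∀ t v, Nin R t v → ν t * ζ v = 0) (f : C(A, ℂ))
    (hf : ∀ a, R d₀ a → f a = 0) : Sm ν d₀ (ζ f) := by
  intro ε hε
  obtain ⟨f₁, f₂, he, h1, h2⟩ := cut_small f hε
  refine ⟨{d | ∃ a ∈ tsupport ⇑f₂, R d a}ᶜ,
    (isClosed_meet' hR (isClosed_tsupport _)).isOpen_compl, ?_, fun χ hχ h' => ?_⟩
  · rintro ⟨a, ha, hda⟩
    exact h2 a ha (hf a hda)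
  · have h3 : ν χ * ζ f₂ = 0 := i _ _ fun d hd a ha hda => hχ hd ⟨a, ha, hda⟩
    rw [he, map_add, mul_add, h3, add_zero]
    calc ‖ν χ * ζ f₁‖ ≤ ‖ν χ‖ * ‖ζ f₁‖ := norm_mul_le _ _
      _ ≤ 1 * ε := mul_le_mul ((norm_cal ν χ).trans h') ((norm_cal ζ f₁).trans h1)
          (norm_nonneg _) zero_le_one
      _ = ε := one_mul _

theorem norm_sq_add {α β : C(D, ℂ)} (h : star α * α + star β * β = 1) (η : K) :
    ‖ν α η‖ ^ 2 + ‖ν β η‖ ^ 2 = ‖η‖ ^ 2 := by
  have h1 := norm_sq_hom ν α η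
  have h2 := norm_sq_hom ν β η
  have h3 : (((‖ν α η‖ ^ 2 + ‖ν β η‖ ^ 2 : ℝ)) : ℂ) = ((‖η‖ ^ 2 : ℝ) : ℂ) := by
    rw [Complex.ofReal_add, h1, h2, ← inner_add_right, ← ContinuousLinearMap.add_apply,
      ← map_add, h, map_one, ContinuousLinearMap.one_apply, inner_self_eq_norm_sq_to_K]
    norm_cast
  exact_mod_cast h3

/-- an operator in the commutant of `ν` which is small near every value is zero -/
theorem zero_of_sm {T : K →L[ℂ] K} (hc : ∀ t, Commute (ν t) T) (h : ∀ d, Sm ν d T) : T = 0 := by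
  have main : ∀ ε > 0, ∀ ξ : K, ‖T ξ‖ ≤ ε * ‖ξ‖ := by
    intro ε hε
    have h1 : ∃ O : Set D, IsOpen O ∧ univ ⊆ O ∧ ∀ χ : C(D, ℂ), tsupport ⇑χ ⊆ O → ∀ ξ : K,
        ‖T (ν χ ξ)‖ ≤ ε * ‖ν χ ξ‖ := by
      refine isCompact_univ.induction_on (p := fun S => ∃ O : Set D, IsOpen O ∧ S ⊆ O ∧
        ∀ χ : C(D, ℂ), tsupport ⇑χ ⊆ O → ∀ ξ : K, ‖T (ν χ ξ)‖ ≤ ε * ‖ν χ ξ‖) ?_ ?_ ?_ ?_
      · refine ⟨∅, isOpen_empty, subset_rfl, fun χ hχ ξ => ?_⟩
        have h0 : χ = 0 := by
          ext x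
          by_contra hx
          exact (hχ (subset_tsupport _ hx)).elim
        rw [h0, map_zero, ContinuousLinearMap.zero_apply, map_zero, norm_zero, mul_zero]
      · rintro S S' hS ⟨O, hO, h1, h2⟩
        exact ⟨O, hO, hS.trans h1, h2⟩
      · rintro S S' ⟨O, hO, hSO, h1⟩ ⟨O', hO', hSO', h2⟩
        refine ⟨O ∪ O', hO.union hO', union_subset_union hSO hSO', fun χ hχ ξ => ?_⟩
        obtain ⟨η, e1, e2, -⟩ := exists_cut (F := tsupport ⇑χ ∩ O'ᶜ) (W := O)
          ((isClosed_tsupport _).inter hO'.isClosed_compl) hO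
          (fun x hx => (hχ hx.1).resolve_right hx.2)
        -- normalise
        have hpos : ∀ x, 0 < ‖η x‖ ^ 2 + ‖1 - η x‖ ^ 2 := fun x => by
          by_cases h0 : η x = 0
          · rw [h0, sub_zero, norm_one, norm_zero]
            norm_num
          · have := norm_pos_iff.2 h0
            positivity
        have hDc : Continuous fun x => ((Real.sqrt (‖η x‖ ^ 2 + ‖1 - η x‖ ^ 2) : ℝ) : ℂ)⁻¹ := by
          refine Continuous.inv₀ (by fun_prop) fun x => ?_
          exact_mod_cast (Real.sqrt_pos.2 (hpos x)).ne'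
        obtain ⟨d, hd⟩ : ∃ d : C(D, ℂ), ∀ x, d x =
            ((Real.sqrt (‖η x‖ ^ 2 + ‖1 - η x‖ ^ 2) : ℝ) : ℂ)⁻¹ := ⟨⟨_, hDc⟩, fun _ => rfl⟩
        have hab : star (η * d) * (η * d) + star ((1 - η) * d) * ((1 - η) * d) = 1 := by
          ext x
          have h3 : (starRingEnd ℂ) (d x) = d x := by
            rw [hd, map_inv₀, Complex.conj_ofReal]
          have h4 : d x * d x * ((‖η x‖ ^ 2 + ‖1 - η x‖ ^ 2 : ℝ) : ℂ) = 1 := by
            have h5 : ((Real.sqrt (‖η x‖ ^ 2 + ‖1 - η x‖ ^ 2) : ℝ) : ℂ) *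
                ((Real.sqrt (‖η x‖ ^ 2 + ‖1 - η x‖ ^ 2) : ℝ) : ℂ) =
                ((‖η x‖ ^ 2 + ‖1 - η x‖ ^ 2 : ℝ) : ℂ) := by
              rw [← Complex.ofReal_mul, Real.mul_self_sqrt (hpos x).le]
            have h6 : ((Real.sqrt (‖η x‖ ^ 2 + ‖1 - η x‖ ^ 2) : ℝ) : ℂ) ≠ 0 := by
              exact_mod_cast (Real.sqrt_pos.2 (hpos x)).ne'
            rw [← h5, hd]
            field_simp
          have h7 : (starRingEnd ℂ) (η x) * η x = ((‖η x‖ ^ 2 : ℝ) : ℂ) := by
            rw [mul_comm, Complex.mul_conj, Complex.normSq_eq_norm_sq]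
          have h8 : (starRingEnd ℂ) (1 - η x) * (1 - η x) = ((‖1 - η x‖ ^ 2 : ℝ) : ℂ) := by
            rw [mul_comm, Complex.mul_conj, Complex.normSq_eq_norm_sq]
          simp only [ContinuousMap.add_apply, ContinuousMap.mul_apply, ContinuousMap.star_apply,
            ContinuousMap.sub_apply, ContinuousMap.one_apply, Complex.star_def, map_mul, h3]
          calc _ = d x * d x * ((starRingEnd ℂ) (η x) * η x +
                (starRingEnd ℂ) (1 - η x) * (1 - η x)) := by ring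
            _ = 1 := by rw [h7, h8, ← Complex.ofReal_add]; exact h4
        have k1 : tsupport ⇑(η * d * χ) ⊆ O :=
          ((tsupport_mul_l _ _).trans (tsupport_mul_l _ _)).trans e1
        have k2 : tsupport ⇑((1 - η) * d * χ) ⊆ O' := by
          intro x hx
          have q1 : x ∈ tsupport ⇑χ := tsupport_mul_r _ _ hx
          have q2 : x ∈ tsupport (fun x => 1 - η x) :=
            tsupport_mul_l _ _ (tsupport_mul_l _ _ hx)
          by_contra hO
          exact disjoint_left.1 e2 q2 ⟨q1, hO⟩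
        have k3 := norm_sq_add (ν := ν) hab (T (ν χ ξ))
        have k4 := norm_sq_add (ν := ν) hab (ν χ ξ)
        have k5 : ∀ a : C(D, ℂ), ν a (T (ν χ ξ)) = T (ν (a * χ) ξ) := fun a => by
          have := congrArg (fun S : K →L[ℂ] K => S (ν χ ξ)) (hc a).eq
          simp only [ContinuousLinearMap.mul_apply] at this
          rw [this, map_mul, ContinuousLinearMap.mul_apply]
        have k6 : ∀ a : C(D, ℂ), ν a (ν χ ξ) = ν (a * χ) ξ := fun a => by
          rw [map_mul, ContinuousLinearMap.mul_apply]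
        rw [k5, k5] at k3
        rw [k6, k6] at k4
        have k7 := h1 _ k1 ξ
        have k8 := h2 _ k2 ξ
        refine le_of_sq_le_sq ?_ (by positivity)
        rw [← k3, mul_pow, ← k4]
        nlinarith [pow_le_pow_left₀ (norm_nonneg _) k7 2, pow_le_pow_left₀ (norm_nonneg _) k8 2]
      · intro d _
        obtain ⟨U, hU, hdU, h1⟩ := h d ε hε
        obtain ⟨ψ, e1, e2, e3⟩ := exists_cut (F := {d}) (W := U) isClosed_singleton hU
          (singleton_subset_iff.2 hdU)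
        have hV : IsOpen (tsupport (fun x => 1 - ψ x))ᶜ := (isClosed_tsupport _).isOpen_compl
        have hdV : d ∈ (tsupport (fun x => 1 - ψ x))ᶜ := fun h => disjoint_left.1 e2 h rfl
        refine ⟨_, mem_nhdsWithin_of_mem_nhds (hV.mem_nhds hdV), _, hV, subset_rfl,
          fun χ hχ ξ => ?_⟩
        have h2 : χ = ψ * χ := by
          ext x
          by_cases hx : χ x = 0
          · rw [ContinuousMap.mul_apply, hx, mul_zero]
          · have h3 : 1 - ψ x = 0 := by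
              by_contra h0
              exact hχ (subset_tsupport _ hx) (subset_tsupport _ h0)
            rw [ContinuousMap.mul_apply, ← sub_eq_zero.1 h3, one_mul]
        have h3 : ‖ψ‖ ≤ 1 := (ContinuousMap.norm_le _ zero_le_one).2 e3
        have h4 : T (ν χ ξ) = (ν ψ * T) (ν χ ξ) := by
          rw [(hc ψ).eq, ContinuousLinearMap.mul_apply, ← ContinuousLinearMap.mul_apply (ν ψ),
            ← map_mul, ← h2]
        rw [h4]
        exact ((ν ψ * T).le_opNorm _).trans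
          (mul_le_mul_of_nonneg_right (h1 ψ e1 h3) (norm_nonneg _))
    obtain ⟨O, -, hO, h2⟩ := h1
    intro ξ
    have := h2 1 ((subset_univ _).trans hO) ξ
    rwa [map_one, ContinuousLinearMap.one_apply] at this
  ext ξ
  rw [ContinuousLinearMap.zero_apply, ← norm_le_zero_iff]
  refine le_of_forall_pos_le_add fun ε hε => ?_
  have h1 := main (ε / (1 + ‖ξ‖)) (by positivity) ξ
  rw [zero_add]
  refine h1.trans ?_
  rw [div_mul_eq_mul_div, div_le_iff₀ (by positivity)]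
  nlinarith [norm_nonneg ξ]

/-- **The rectangle lemma.** -/
theorem rect {R₁ : D → A → Prop} {R₂ : D → B → Prop}
    (h₁ : IsClosed {q : D × A | R₁ q.1 q.2}) (h₂ : IsClosed {q : D × B | R₂ q.1 q.2})
    {ζ : C(A, ℂ) →⋆ₐ[ℂ] (K →L[ℂ] K)} {μ : C(B, ℂ) →⋆ₐ[ℂ] (K →L[ℂ] K)}
    (c₁ : ∀ t v, Commute (ν t) (ζ v)) (c₂ : ∀ t w, Commute (ν t) (μ w))
    (i₁ : ∀ t v, Nin R₁ t v → ν t * ζ v = 0) (i₂ : ∀ t w, Nin R₂ t w → ν t * μ w = 0)
    {ι : Type*} [Fintype ι] (t : ι → C(D, ℂ)) (v : ι → C(A, ℂ)) (w : ι → C(B, ℂ))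
    (h : ∀ d a b, R₁ d a → R₂ d b → ∑ i, t i d * (v i a * w i b) = 0) :
    ∑ i, ν (t i) * (ζ (v i) * μ (w i)) = 0 := by
  classical
  have cc : ∀ s i, Commute (ν s) (ν i) := fun s i => by
    unfold Commute SemiconjBy
    rw [← map_mul, ← map_mul, mul_comm]
  refine zero_of_sm (ν := ν) (fun s => Commute.sum_right _ _ _ fun i _ =>
    (cc s _).mul_right ((c₁ s _).mul_right (c₂ s _))) fun d => ?_
  -- the kernel at `d`
  let W : Submodule ℂ (ι → ℂ) :=
    { carrier := {x | ∀ a, R₁ d a → ∑ i, x i * v i a = 0}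
      add_mem' := fun {x y} hx hy a ha => by
        have h1 := hx a ha
        have h2 := hy a ha
        simp only [Pi.add_apply, add_mul, Finset.sum_add_distrib, h1, h2, add_zero]
      zero_mem' := fun a _ => by simp
      smul_mem' := fun c x hx a ha => by
        have h1 := hx a ha
        simp only [Pi.smul_apply, smul_eq_mul, mul_assoc, ← Finset.mul_sum, h1, mul_zero] }
  obtain ⟨g, hg⟩ := LinearMap.exists_leftInverse_of_injective W.subtype W.ker_subtype
  let p : (ι → ℂ) →ₗ[ℂ] (ι → ℂ) := W.subtype ∘ₗ g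
  have hp1 : ∀ x, p x ∈ W := fun x => (g x).2
  have hp2 : ∀ x ∈ W, p x = x := fun x hx => by
    have := congrArg (fun f : W →ₗ[ℂ] W => f ⟨x, hx⟩) hg
    change ((g x : W) : ι → ℂ) = x
    have h3 : g (W.subtype ⟨x, hx⟩) = ⟨x, hx⟩ := this
    exact congrArg Subtype.val h3
  let m : ι → ι → ℂ := fun k i => p (fun j => if k = j then 1 else 0) i
  have hm : ∀ x i, p x i = ∑ k, x k * m k i := fun x i => by
    have h1 := LinearMap.pi_apply_eq_sum_univ p x
    have h2 := congrFun h1 i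
    rw [h2, Finset.sum_apply]
    refine Finset.sum_congr rfl fun k _ => ?_
    rw [Pi.smul_apply, smul_eq_mul]
  let c : ι → C(B, ℂ) := fun i => t i d • w i
  let f : ι → C(A, ℂ) := fun k => ∑ i, m k i • v i
  let e : ι → C(B, ℂ) := fun i => c i - ∑ k, m k i • c k
  have hf : ∀ k a, R₁ d a → f k a = 0 := fun k a ha => by
    have h1 := hp1 (fun j => if k = j then 1 else 0) a ha
    simp only [f, ContinuousMap.coe_sum, Finset.sum_apply, ContinuousMap.coe_smul, Pi.smul_apply,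
      smul_eq_mul]
    exact h1
  have he : ∀ i b, R₂ d b → e i b = 0 := fun i b hb => by
    have h1 : (fun i => t i d * w i b) ∈ W := fun a ha => by
      have := h d a b ha hb
      refine Eq.trans (Finset.sum_congr rfl fun i _ => ?_) this
      ring
    have h2 := congrFun (hp2 _ h1) i
    rw [hm] at h2
    simp only [e, c, ContinuousMap.sub_apply, ContinuousMap.coe_sum, Finset.sum_apply,
      ContinuousMap.coe_smul, Pi.smul_apply, smul_eq_mul]
    rw [← h2, sub_eq_zero]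
    exact Finset.sum_congr rfl fun k _ => by ring
  have key : ∑ i, ν (t i) * (ζ (v i) * μ (w i)) =
      ∑ i, ν (t i - (t i d) • (1 : C(D, ℂ))) * (ζ (v i) * μ (w i)) +
      (∑ k, ζ (f k) * μ (c k) + ∑ i, ζ (v i) * μ (e i)) := by
    have a1 : ∀ i, ν (t i) * (ζ (v i) * μ (w i)) =
        ν (t i - (t i d) • (1 : C(D, ℂ))) * (ζ (v i) * μ (w i)) + ζ (v i) * μ (c i) := by
      intro i
      simp only [c, map_sub, map_smul, map_one, sub_mul, smul_mul_assoc, one_mul,
        mul_smul_comm]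
      abel
    have a2 : ∑ k, ζ (f k) * μ (c k) + ∑ i, ζ (v i) * μ (e i) = ∑ i, ζ (v i) * μ (c i) := by
      simp only [f, e, map_sum, map_sub, map_smul, Finset.sum_mul, mul_sub,
        Finset.sum_sub_distrib, Finset.mul_sum, smul_mul_assoc, mul_smul_comm]
      rw [Finset.sum_comm (s := Finset.univ) (t := Finset.univ)
        (f := fun k i => m k i • (ζ (v i) * μ (c k)))]
      abel
    rw [a2, ← Finset.sum_add_distrib]
    exact Finset.sum_congr rfl fun i _ => a1 i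
  rw [key]
  refine Sm.add (Sm.sum _ fun i _ => Sm.mul_right (Sm.self _ ?_) _) (Sm.add
    (Sm.sum _ fun k _ => Sm.mul_right (Sm.inc h₁ i₁ _ (hf k)) _)
    (Sm.sum _ fun i _ => Sm.mul_left (Sm.inc h₂ i₂ _ (he i)) fun s => c₁ s _))
  simp only [ContinuousMap.sub_apply, ContinuousMap.coe_smul, Pi.smul_apply,
    ContinuousMap.one_apply, smul_eq_mul, mul_one, sub_self]

end sm

end Vale.Agent.P092.H179.A
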